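import Vale.Agent.P327.Rigidity

namespace Vale.Agent.Results.P327.TuringRigidity

open Vale.Agent.P327

/-- The rigidity conjecture for the Turing degrees. -/
theorem result : ∀ π : SetDegree ≃o SetDegree, ∀ a : SetDegree, π a = a :=
  rigidity

end Vale.Agent.Results.P327.TuringRigidity
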